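import Mathlib
import Vale.Agent.Lib.P042.Core

open Polynomial

namespace Vale.Agent.Results.P042.A_digit_general

theorem result (t : ℤ) (μ : ℕ) (hμ : 2 ≤ μ) (g : Polynomial ℤ) (m : ℕ) (hm : 2 ≤ m)
    (hsq : Squarefree m)
    (hroot : ∀ p : ℕ, p.Prime → p ∣ m → ∀ n : ℤ, ¬ ((p : ℤ) ∣ g.eval n))
    (R : Finset ℕ) (hRm : ∀ r ∈ R, r < m) (hRne : R.Nonempty)
    (hR : ∀ r ∈ R, ∀ s ∈ R, r ≠ s → ∀ u : ℤ, ¬ ((m : ℤ) ∣ (r : ℤ) - s - g.eval t * u ^ μ)) :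
    ∃ c : ℝ, 0 < c ∧ ∀ N : ℕ, 1 ≤ N → ∃ A : Finset ℕ, A ⊆ Finset.Icc 1 N ∧
      (∀ a ∈ A, ∀ b ∈ A, ∀ n : ℤ, (a : ℤ) - b = ((X - C t) ^ μ * g).eval n → a = b) ∧
      c * (N : ℝ) ^ (1 - 1 / ((((X - C t) ^ μ * g).natDegree : ℕ) : ℝ)
        + Real.log R.card / ((((X - C t) ^ μ * g).natDegree : ℝ) * Real.log m)) ≤ A.card :=
  Vale.Agent.Lib.P042.shifted t μ (by omega) g m hm hsq hroot R hRm hRne hR

end Vale.Agent.Results.P042.A_digit_general
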