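import Mathlib
import Vale.Agent.Lib.P042.TwoPrimes

open Polynomial

namespace Vale.Agent.Results.P042.B_two_primes

theorem result (t : ℤ) (μ : ℕ) (hμ : 2 ≤ μ) (g : Polynomial ℤ) (p q : ℕ) (hp : p.Prime)
    (hq : q.Prime) (hpq : p ≠ q) (hgp : ¬ Nat.Coprime μ (p - 1)) (hgq : ¬ Nat.Coprime μ (q - 1))
    (hrp : ∀ n : ℤ, ¬ ((p : ℤ) ∣ g.eval n)) (hrq : ∀ n : ℤ, ¬ ((q : ℤ) ∣ g.eval n)) :
    ∃ c : ℝ, 0 < c ∧ ∀ N : ℕ, 1 ≤ N → ∃ A : Finset ℕ, A ⊆ Finset.Icc 1 N ∧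
      (∀ a ∈ A, ∀ b ∈ A, ∀ n : ℤ, (a : ℤ) - b = ((X - C t) ^ μ * g).eval n → a = b) ∧
      c * (N : ℝ) ^ (1 - 1 / ((((X - C t) ^ μ * g).natDegree : ℕ) : ℝ)
        + Real.log 2 / ((((X - C t) ^ μ * g).natDegree : ℝ) * Real.log ((p * q : ℕ) : ℝ)))
        ≤ A.card :=
  Vale.Agent.Lib.P042.two_primes t μ (by omega) g p q hp hq hpq hgp hgq hrp hrq

end Vale.Agent.Results.P042.B_two_primes
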